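import Vale.Agent.P131.Bridge.Space
import Vale.Agent.P131.Specs

/-!
P131 bridge: an invariant projection gives approximations in the levels, and commutation with
every site algebra forces it to be scalar.
-/

namespace Vale.Agent.P131

open Matrix UniformSpace Filter Topology
open scoped ComplexOrder ComplexConjugate InnerProductSpace

noncomputable section

variable {K : ℕ → ℕ}

variable (K) in
/-- the trace vector -/
def xi : Hs K := jv K 0 1

theorem jv_one (m : ℕ) : jv K m (1 : Lvl K m) = xi K := by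
  rw [xi, ← jv_up (Nat.zero_le m) (1 : Lvl K 0), up_one]

theorem jv_eq_rop (m : ℕ) (Y : Lvl K m) : jv K m Y = rop K Y (xi K) := by
  rw [← jv_one m, rop_jv_same, Matrix.one_mul]

/-- the data of an invariant projection -/
structure InvProj (P : Hs K →L[ℂ] Hs K) : Prop where
  idem : ∀ x, P (P x) = P x
  symm : ∀ x y, ⟪P x, y⟫_ℂ = ⟪x, P y⟫_ℂ
  inv : ∀ A : Hs K →L[ℂ] Hs K, A * opT K = opT K * A → ∀ x, P (A (P x)) = A (P x)

variable {P : Hs K →L[ℂ] Hs K}

theorem InvProj.comm_of (h : InvProj P) {A B : Hs K →L[ℂ] Hs K} (hA : A * opT K = opT K * A)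
    (hB : B * opT K = opT K * B) (hAB : ∀ x y, ⟪B x, y⟫_ℂ = ⟪x, A y⟫_ℂ) (x : Hs K) :
    P (A x) = A (P x) := by
  rw [← h.inv A hA x]
  refine ext_inner_left ℂ fun y => ?_
  rw [← h.symm y, ← h.symm y, ← hAB, ← hAB, ← h.inv B hB y, h.symm (B (P y)), h.inv B hB y]

theorem InvProj.comm_rop (h : InvProj P) {m : ℕ} (Y : Lvl K m) (x : Hs K) :
    P (rop K Y x) = rop K Y (P x) :=
  h.comm_of (rop_commute_opT Y) (rop_commute_opT Yᴴ)
    (fun x y => by rw [inner_rop, Matrix.conjTranspose_conjTranspose]) x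

/-- the level `m` approximation -/
def appr (P : Hs K →L[ℂ] Hs K) (m : ℕ) : Lvl K m :=
  Matrix.of fun a b => (Fintype.card (Idx K m) : ℂ) * ⟪jv K m (Matrix.single a b 1), P (xi K)⟫_ℂ

theorem inner_appr (P : Hs K →L[ℂ] Hs K) (m : ℕ) (Y : Lvl K m) :
    ⟪jv K m Y, P (xi K)⟫_ℂ = ip Y (appr P m) := by
  have hY : Y = ∑ a, ∑ b, Y a b • Matrix.single a b (1 : ℂ) := by
    conv_lhs => rw [Matrix.matrix_eq_sum_single Y]
    simp [Matrix.smul_single]
  have hip : ∀ {ι : Type} (s : Finset ι) (F : ι → Lvl K m),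
      ip (∑ i ∈ s, F i) (appr P m) = ∑ i ∈ s, ip (F i) (appr P m) := by
    intro ι s F
    simp [ip, ntr, Matrix.conjTranspose_sum, Finset.sum_mul, Matrix.trace_sum, Finset.sum_div]
  rw [hY, map_sum, sum_inner, hip]
  refine Finset.sum_congr rfl fun a _ => ?_
  rw [map_sum, sum_inner, hip]
  refine Finset.sum_congr rfl fun b _ => ?_
  rw [map_smul, inner_smul_left, ip_smul_left, ip_single]
  simp only [appr, Matrix.of_apply]
  rw [mul_div_cancel_left₀]
  exact_mod_cast Fintype.card_ne_zero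

theorem inner_P_jv (h : InvProj P) (m : ℕ) (Y Z : Lvl K m) :
    ⟪jv K m Y, P (jv K m Z)⟫_ℂ = ip Y (appr P m * Z) := by
  have h1 : ⟪jv K m Y, rop K Z (P (xi K))⟫_ℂ = ⟪rop K Zᴴ (jv K m Y), P (xi K)⟫_ℂ := by
    rw [inner_rop, Matrix.conjTranspose_conjTranspose]
  rw [jv_eq_rop m Z, h.comm_rop, h1, rop_jv_same, inner_appr, ip_mul_right,
    Matrix.conjTranspose_conjTranspose]

theorem inner_resid (P : Hs K →L[ℂ] Hs K) (m : ℕ) (Y : Lvl K m) :
    ⟪jv K m Y, P (xi K) - jv K m (appr P m)⟫_ℂ = 0 := by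
  rw [inner_sub_right, inner_appr, inner_jv, sub_self]

/-- distance from `P ξ` to its approximation -/
def err (P : Hs K →L[ℂ] Hs K) (m : ℕ) : ℝ := ‖jv K m (appr P m) - P (xi K)‖

theorem err_le (P : Hs K →L[ℂ] Hs K) (m : ℕ) (Y : Lvl K m) :
    err P m ≤ ‖jv K m Y - P (xi K)‖ := by
  have h : ⟪jv K m Y - jv K m (appr P m), jv K m (appr P m) - P (xi K)⟫_ℂ = 0 := by
    rw [← map_sub, ← neg_sub (P (xi K)), inner_neg_right, inner_resid, neg_zero]
  have h2 := norm_add_sq_eq_norm_sq_add_norm_sq_of_inner_eq_zero _ _ h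
  rw [sub_add_sub_cancel] at h2
  rw [err]
  nlinarith [norm_nonneg (jv K m Y - P (xi K)), norm_nonneg (jv K m (appr P m) - P (xi K)),
    mul_self_nonneg ‖jv K m Y - jv K m (appr P m)‖]

theorem err_tendsto (P : Hs K →L[ℂ] Hs K) : Tendsto (err P) atTop (𝓝 0) := by
  refine Metric.tendsto_atTop.2 fun ε hε => ?_
  obtain ⟨v, ⟨m, X, rfl⟩, hv⟩ := Metric.mem_closure_iff.1 (dense_jv (P (xi K))) ε hε
  refine ⟨m, fun j hj => ?_⟩
  rw [Real.dist_eq, sub_zero, abs_of_nonneg (by exact norm_nonneg _ : (0 : ℝ) ≤ err P j)]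
  refine (err_le P j (up K hj X)).trans_lt ?_
  rwa [jv_up, ← dist_eq_norm, dist_comm]

theorem appr_isHermitian (h : InvProj P) (m : ℕ) : (appr P m).IsHermitian := by
  refine Matrix.IsHermitian.ext fun a b => ?_
  have e1 := inner_appr P m (Matrix.single b a 1)
  have e2 := inner_P_jv h m (Matrix.single a b 1) (1 : Lvl K m)
  rw [Matrix.mul_one, ip_single, jv_one] at e2
  have e3 : ⟪jv K m (Matrix.single b a 1), P (xi K)⟫_ℂ =
      conj ⟪jv K m 1, P (jv K m (Matrix.single b a 1))⟫_ℂ := by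
    rw [inner_conj_symm, h.symm, jv_one]
  rw [inner_P_jv h] at e3
  have e4 : ip (1 : Lvl K m) (appr P m * Matrix.single b a 1) =
      appr P m a b / (Fintype.card (Idx K m) : ℂ) := by
    simp [ip, ntr, Matrix.trace, Matrix.mul_apply, Matrix.single, ite_and]
  rw [e4, map_div₀, map_natCast, e1, ip_single] at e3
  have hc : (Fintype.card (Idx K m) : ℂ) ≠ 0 := by exact_mod_cast Fintype.card_ne_zero
  field_simp at e3
  rw [e3]
  exact Complex.conj_conj _

theorem appr_posSemidef (h : InvProj P) (m : ℕ) : PosContr (appr P m) := by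
  have key : ∀ (A : Lvl K m) (f : Hs K → Hs K), A.IsHermitian →
      (∀ Y, ip Y (A * Y) = (‖f (jv K m Y)‖ : ℂ) ^ 2) → A.PosSemidef := by
    intro A f hA hf
    refine Matrix.PosSemidef.of_dotProduct_mulVec_nonneg hA fun u => ?_
    have b0 : Idx K m := fun l => default
    have hY := hf (Matrix.of fun a b => if b = b0 then u a else 0)
    simp only [ip, ntr, Matrix.trace, Matrix.diag_apply, Matrix.mul_apply,
      Matrix.conjTranspose_apply, Matrix.of_apply] at hY
    rw [Finset.sum_eq_single b0 (fun b _ hb => by simp [hb]) (by simp)] at hY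
    simp only [if_pos] at hY
    have hc : (0 : ℝ) < Fintype.card (Idx K m) := by exact_mod_cast Fintype.card_pos
    rw [div_eq_iff (by exact_mod_cast hc.ne')] at hY
    have : star u ⬝ᵥ A *ᵥ u =
        ((‖f (jv K m (Matrix.of fun a b => if b = b0 then u a else 0))‖ ^ 2 *
          (Fintype.card (Idx K m) : ℝ) : ℝ) : ℂ) := by
      push_cast
      rw [← hY]
      simp [dotProduct, Matrix.mulVec]
    rw [this]
    exact_mod_cast mul_nonneg (sq_nonneg _) hc.le
  have hP : ∀ x, ⟪x, P x⟫_ℂ = (‖P x‖ : ℂ) ^ 2 := fun x => by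
    rw [← h.idem x, ← h.symm, h.idem, inner_self_eq_norm_sq_to_K]; rfl
  have hQ : ∀ x, ⟪x, x - P x⟫_ℂ = (‖x - P x‖ : ℂ) ^ 2 := fun x => by
    have : ⟪P x, x - P x⟫_ℂ = 0 := by
      rw [h.symm, map_sub, h.idem, sub_self, inner_zero_right]
    have h2 : ⟪x - P x, x - P x⟫_ℂ = ⟪x, x - P x⟫_ℂ := by rw [inner_sub_left, this, sub_zero]
    rw [← h2, inner_self_eq_norm_sq_to_K]; rfl
  refine ⟨key _ (fun x => P x) (appr_isHermitian h m) fun Y => ?_,
    key _ (fun x => x - P x) (Matrix.isHermitian_one.sub (appr_isHermitian h m)) fun Y => ?_⟩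
  · rw [← inner_P_jv h]; exact hP _
  · rw [← hQ, inner_sub_right, inner_P_jv h, inner_jv, sub_mul, one_mul]
    simp [ip, ntr, mul_sub, sub_div]

/-- the commutator vector of a site matrix -/
def cv (P : Hs K →L[ℂ] Hs K) {m : ℕ} (S : Lvl K m) : Hs K :=
  P (lop K S (xi K)) - lop K S (P (xi K))

theorem inner_cv (h : InvProj P) {m : ℕ} (S Y : Lvl K m) :
    ⟪jv K m Y, cv P S⟫_ℂ = ip Y (appr P m * S - S * appr P m) := by
  have h1 : lop K S (xi K) = jv K m S := by
    rw [← jv_one m, lop_jv_same, Matrix.mul_one]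
  rw [cv, inner_sub_right, h1, inner_P_jv h, ← Matrix.conjTranspose_conjTranspose S,
    ← inner_lop Sᴴ, lop_jv_same, inner_appr, ip_mul_left, Matrix.conjTranspose_conjTranspose]
  simp [ip, ntr, mul_sub, sub_div]

theorem comm_mono (h : InvProj P) (l : ℕ) (M : Matrix (Site K l) (Site K l) ℂ) (m j : ℕ)
    (hm : l < m) (hj : l < j) (hmj : m ≤ j) :
    nsq (appr P m * siteOp K (⟨l, hm⟩ : Fin m) M - siteOp K (⟨l, hm⟩ : Fin m) M * appr P m) ≤
      nsq (appr P j * siteOp K (⟨l, hj⟩ : Fin j) M - siteOp K (⟨l, hj⟩ : Fin j) M * appr P j) := by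
  set S := siteOp K (⟨l, hm⟩ : Fin m) M with hS
  have hup : siteOp K (⟨l, hj⟩ : Fin j) M = up K hmj S := (up_siteOp hmj l hm M).symm
  rw [hup]
  set C := appr P m * S - S * appr P m with hC
  set C' := appr P j * up K hmj S - up K hmj S * appr P j with hC'
  have hcv : cv P (up K hmj S) = cv P S := by rw [cv, cv, lop_up]
  have e1 : ⟪jv K m C, jv K j C'⟫_ℂ = ⟪jv K m C, jv K m C⟫_ℂ := by
    rw [← jv_up hmj C, inner_jv, hC', ← inner_cv h, hcv, jv_up, inner_cv h, ← hC, inner_jv]
  have e2 : ‖jv K m C‖ ^ 2 ≤ ‖jv K m C‖ * ‖jv K j C'‖ := by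
    rw [← inner_self_eq_norm_sq (𝕜 := ℂ), ← e1]
    exact re_inner_le_norm _ _
  rw [← norm_jv_sq, ← norm_jv_sq]
  have hle : ‖jv K m C‖ ≤ ‖jv K j C'‖ := by
    by_cases h0 : ‖jv K m C‖ = 0
    · rw [h0]; exact norm_nonneg _
    · rw [pow_two] at e2
      exact le_of_mul_le_mul_left e2 (lt_of_le_of_ne (norm_nonneg _) (Ne.symm h0))
  gcongr

theorem cv_eq_zero (h : InvProj P) {m : ℕ} (S : Lvl K m)
    (hS : ∀ j (hj : m ≤ j), appr P j * up K hj S = up K hj S * appr P j) : cv P S = 0 := by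
  refine dense_jv.eq_zero_of_inner_left (𝕜 := ℂ) fun v hv => ?_
  obtain ⟨k, X, hX⟩ := hv
  have hm : m ≤ max m k := le_max_left m k
  rw [← hX, ← jv_up (le_max_right m k) X, show cv P S = cv P (up K hm S) by rw [cv, cv, lop_up],
    ← inner_conj_symm, inner_cv h, hS, sub_self]
  simp [ip, ntr]

theorem commute_lop_of_cv (h : InvProj P) {m : ℕ} (S : Lvl K m) (h0 : cv P S = 0) :
    P * lop K S = lop K S * P := by
  refine clm_ext fun k Y => ?_
  change P (lop K S (jv K k Y)) = lop K S (P (jv K k Y))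
  have hc : ∀ x, rop K Y (lop K S x) = lop K S (rop K Y x) := fun x =>
    (DFunLike.congr_fun (lop_commute_rop S Y) x).symm
  rw [jv_eq_rop k Y, ← hc, h.comm_rop, h.comm_rop, ← hc, sub_eq_zero.1 h0]

theorem kS_commute_Tm {m : ℕ} (l : Fin m) (k : Fin (K l + 1)) :
    Commute (siteOp K l (kS K l k)) (Tm K m) := by
  refine Commute.sum_right _ _ _ fun i _ => Commute.smul_right ?_ _
  by_cases hil : l = i
  · subst hil
    change _ = _
    rw [siteOp_mul, siteOp_mul]
    congr 1
    ext s t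
    simp only [kS, xD, Matrix.diagonal_mul, Matrix.mul_diagonal, Matrix.of_apply]
    by_cases hst : s.2 = t.2
    · rw [hst]; ring
    · simp [hst]
  · exact siteOp_commute K hil _ _

theorem kS_star {m : ℕ} (l : Fin m) (k : Fin (K l + 1)) :
    (siteOp K l (kS K l k))ᴴ = siteOp K l (kS K l k) := by
  rw [siteOp_conjTranspose, kS, Matrix.diagonal_conjTranspose]
  congr 2
  funext s
  simp only [Pi.star_apply, apply_ite (star : ℂ → ℂ), star_one, star_zero]

theorem appr_commute_kS (h : InvProj P) {m : ℕ} (l : Fin m) (k : Fin (K l + 1)) :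
    Commute (appr P m) (siteOp K l (kS K l k)) := by
  set S := siteOp K l (kS K l k) with hS
  have hc : lop K S * opT K = opT K * lop K S := lop_commute_opT _ (kS_commute_Tm l k)
  have h0 : cv P S = 0 := by
    rw [cv, sub_eq_zero]
    refine h.comm_of hc hc (fun x y => ?_) (xi K)
    rw [inner_lop, hS, kS_star]
  have h1 := inner_cv h S (appr P m * S - S * appr P m)
  rw [h0, inner_zero_right, ip_self] at h1
  have h2 : nsq (appr P m * S - S * appr P m) = 0 := by exact_mod_cast h1.symm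
  have h3 : ∀ a b, (appr P m * S - S * appr P m) a b = 0 := by
    rw [nsq, div_eq_zero_iff] at h2
    rcases h2 with h2 | h2
    · intro a b
      have ha := (Finset.sum_eq_zero_iff_of_nonneg fun a _ => by positivity).1 h2 a (by simp)
      have hb := (Finset.sum_eq_zero_iff_of_nonneg fun b _ => by positivity).1 ha b (by simp)
      simpa using hb
    · exact absurd (Nat.cast_eq_zero.1 h2) Fintype.card_ne_zero
  exact sub_eq_zero.1 (Matrix.ext h3)

/-- a vector bound from a bound on matrices -/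
theorem vec_bound {I : Type*} [Fintype I] [DecidableEq I] {b : Matrix I I ℂ} {C : ℝ}
    (hb : ∀ Y : Matrix I I ℂ, nsq (b * Y) ≤ C ^ 2 * nsq Y) (u : I → ℂ) :
    ∑ a, ‖(b *ᵥ u) a‖ ^ 2 ≤ C ^ 2 * ∑ a, ‖u a‖ ^ 2 := by
  rcases isEmpty_or_nonempty I with hI | hI
  · simp
  · have c0 : I := hI.some
    set Y : Matrix I I ℂ := Matrix.of fun a c => if c = c0 then u a else 0 with hYdef
    have h := hb Y
    have e1 : ∀ a, ∑ c, ‖(b * Y) a c‖ ^ 2 = ‖(b *ᵥ u) a‖ ^ 2 := fun a => by
      rw [Finset.sum_eq_single c0]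
      · simp [hYdef, Matrix.mul_apply, Matrix.mulVec, dotProduct]
      · intro c _ hc
        simp [hYdef, Matrix.mul_apply, hc]
      · simp
    have e2 : ∀ a, ∑ c, ‖Y a c‖ ^ 2 = ‖u a‖ ^ 2 := fun a => by
      rw [Finset.sum_eq_single c0]
      · simp [hYdef]
      · intro c _ hc
        simp [hYdef, hc]
      · simp
    simp only [nsq, e1, e2] at h
    have hc : (0 : ℝ) < Fintype.card I := by exact_mod_cast Fintype.card_pos
    rw [← mul_div_assoc, div_le_div_iff_of_pos_right hc] at h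
    exact h

theorem up_mul_le {m j : ℕ} (hmj : m ≤ j) {b : Lvl K m} {C : ℝ}
    (hb : ∀ Y : Lvl K m, nsq (b * Y) ≤ C ^ 2 * nsq Y) (Y : Lvl K j) :
    nsq (up K hmj b * Y) ≤ C ^ 2 * nsq Y := by
  unfold nsq
  rw [← mul_div_assoc]
  gcongr
  rw [Finset.sum_comm, Finset.sum_comm (f := fun a c => ‖Y a c‖ ^ 2), Finset.mul_sum]
  refine Finset.sum_le_sum fun c _ => ?_
  rw [sum_equiv_prod (cutEquiv K hmj), sum_equiv_prod (cutEquiv K hmj), Finset.mul_sum]
  refine Finset.sum_le_sum fun r _ => ?_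
  have h := vec_bound hb fun v => Y ((cutEquiv K hmj).symm (v, r)) c
  simp only [Matrix.mulVec, dotProduct] at h
  simpa [up, blk_mul_apply] using h

theorem lop_bound {m : ℕ} {b : Lvl K m} {C : ℝ} (hC : 0 ≤ C)
    (hb : ∀ Y : Lvl K m, nsq (b * Y) ≤ C ^ 2 * nsq Y) (x : Hs K) : ‖lop K b x‖ ≤ C * ‖x‖ := by
  refine Completion.induction_on x (isClosed_le (by fun_prop) (by fun_prop)) fun v => ?_
  rw [lop, extend'_coe, Completion.norm_coe, Completion.norm_coe]
  exact norm_lpre b C hC (fun j h Y => up_mul_le h hb Y) v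

theorem isApprox_appr (h : InvProj P) : IsApprox K (appr P) (err P) := by
  refine ⟨fun m => norm_nonneg _, err_tendsto P, appr_posSemidef h,
    fun m l k => appr_commute_kS h l k, ?_, fun l M m j hm hj hmj => comm_mono h l M m j hm hj hmj⟩
  intro m b C hb hC hbl _
  set A := appr P m
  set z := b * A with hz
  have e1 : (1 - A) * b * A = z - A * z := by rw [hz, sub_mul, sub_mul, one_mul, Matrix.mul_assoc]
  rw [e1, ← norm_jv_sq]
  have hLp : P (lop K b (P (xi K))) = lop K b (P (xi K)) := h.inv _ (lop_commute_opT b hb) _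
  set v := jv K m z - P (jv K m z) with hv
  have hPv : P v = 0 := by rw [hv, map_sub, h.idem, sub_self]
  have hv2 : ‖v‖ ≤ C * err P m := by
    set u := lop K b (jv K m A - P (xi K)) with hu
    have hu2 : v = u - P u := by
      rw [hu, map_sub, map_sub, lop_jv_same, ← hz, hv, hLp]
      abel
    have huu : ⟪v, P u⟫_ℂ = 0 := by rw [← h.symm, hPv, inner_zero_left]
    have hn : ‖v‖ ^ 2 + ‖P u‖ ^ 2 = ‖u‖ ^ 2 := by
      have := norm_add_sq_eq_norm_sq_add_norm_sq_of_inner_eq_zero _ _ huu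
      rw [show v + P u = u by rw [hu2, sub_add_cancel]] at this
      nlinarith [this]
    have h3 : ‖u‖ ≤ C * err P m := lop_bound hC hbl _
    have h4 : 0 ≤ C * err P m := mul_nonneg hC (norm_nonneg _)
    nlinarith [norm_nonneg v, norm_nonneg u, sq_nonneg ‖P u‖]
  have e2 : ‖jv K m (z - A * z)‖ ^ 2 ≤ ‖jv K m (z - A * z)‖ * ‖v‖ := by
    refine le_trans (le_of_eq ?_) (re_inner_le_norm (𝕜 := ℂ) (jv K m (z - A * z)) v)
    rw [hv, inner_sub_right, inner_P_jv h, inner_jv, ← inner_self_eq_norm_sq (𝕜 := ℂ), inner_jv]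
    congr 1
    simp [ip, ntr, mul_sub, sub_div, A]
  have e3 : ‖jv K m (z - A * z)‖ ≤ C * err P m := by
    refine le_trans ?_ hv2
    by_cases h0 : ‖jv K m (z - A * z)‖ = 0
    · rw [h0]; exact norm_nonneg _
    · rw [pow_two] at e2
      exact le_of_mul_le_mul_left e2 (lt_of_le_of_ne (norm_nonneg _) (Ne.symm h0))
  gcongr

/-- a matrix commuting with all site operators is scalar -/
theorem scalar_of_sites {m : ℕ} (A : Lvl K m)
    (hA : ∀ (l : Fin m) (M : Matrix (Site K l) (Site K l) ℂ),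
      A * siteOp K l M = siteOp K l M * A) :
    ∃ t : ℂ, A = t • 1 := by
  classical
  have hoff : ∀ a b, a ≠ b → A a b = 0 := by
    intro a b hab
    obtain ⟨l, hl⟩ : ∃ l, a l ≠ b l := Function.ne_iff.1 hab
    have h := congrFun (congrFun (hA l (Matrix.single (a l) (a l) 1)) a) b
    rw [Matrix.mul_apply, Matrix.mul_apply, Finset.sum_eq_zero, Finset.sum_eq_single a] at h
    · simpa [siteOp] using h.symm
    · intro c _ hc
      simp only [siteOp, Matrix.of_apply]
      by_cases h1 : ∀ i, i ≠ l → a i = c i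
      · rw [if_pos h1, Matrix.single_apply, if_neg, zero_mul]
        rintro ⟨-, h2⟩
        refine hc (funext fun i => ?_)
        by_cases hi : i = l
        · subst hi; exact h2.symm
        · exact (h1 i hi).symm
      · rw [if_neg h1, zero_mul]
    · simp
    · intro c _
      simp [siteOp, Matrix.single_apply, hl]
  have hd : A = Matrix.diagonal fun a => A a a := by
    ext a b
    by_cases hab : a = b
    · subst hab; simp
    · simp [hab, hoff a b hab]
  have hstep : ∀ (a : Idx K m) (l : Fin m) (s : Site K l),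
      A (Function.update a l s) (Function.update a l s) = A a a := by
    intro a l s
    have h := congrFun (congrFun (hA l (Matrix.single (a l) s 1)) a) (Function.update a l s)
    rw [hd, Matrix.diagonal_mul, Matrix.mul_diagonal] at h
    have hs : siteOp K l (Matrix.single (a l) s (1 : ℂ)) a (Function.update a l s) = 1 := by
      simp only [siteOp, Matrix.of_apply]
      rw [if_pos fun i hi => (Function.update_of_ne hi _ _).symm]
      simp
    rw [hs, mul_one, one_mul] at h
    exact h.symm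
  have hconst : ∀ a b, A b b = A a a := by
    intro a b
    have : ∀ s : Finset (Fin m), A (s.piecewise b a) (s.piecewise b a) = A a a := by
      intro s
      induction s using Finset.induction with
      | empty => simp
      | insert l s hl ih => rw [Finset.piecewise_insert, hstep, ih]
    simpa using this Finset.univ
  refine ⟨A default default, ?_⟩
  ext a b
  by_cases hab : a = b
  · subst hab; simp [hconst default a]
  · simp [hab, hoff a b hab]

theorem scalar_of_sitesCommute (h : InvProj P) (hs : SitesCommute K (appr P)) :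
    P = 0 ∨ P = 1 := by
  have hsc : ∀ m, appr P m = ⟪xi K, P (xi K)⟫_ℂ • 1 := by
    intro m
    obtain ⟨t, ht⟩ := scalar_of_sites (appr P m) fun l M => hs l M m l.2
    have h2 := inner_appr P m 1
    rw [jv_one, ht] at h2
    rw [ht, h2]
    congr 1
    simp only [ip, ntr, Matrix.conjTranspose_one, Matrix.one_mul, Matrix.trace_smul,
      Matrix.trace_one, smul_eq_mul]
    rw [mul_div_assoc, div_self (Nat.cast_ne_zero.2 Fintype.card_ne_zero), mul_one]
  set t := ⟪xi K, P (xi K)⟫_ℂ with ht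
  have hxi : P (xi K) = t • xi K := by
    have h1 : err P = fun _ => ‖t • xi K - P (xi K)‖ := by
      funext m
      rw [err, hsc m, map_smul, jv_one]
    have h2 := err_tendsto P
    rw [h1] at h2
    have h3 := tendsto_nhds_unique tendsto_const_nhds h2
    exact (sub_eq_zero.1 (norm_eq_zero.1 h3)).symm
  have hP : P = t • 1 := by
    refine clm_ext fun m Y => ?_
    rw [_root_.smul_apply, jv_eq_rop, h.comm_rop, hxi, map_smul]
    rfl
  have h1 : (t * t) • xi K = t • xi K := by
    have := h.idem (xi K)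
    rwa [hxi, map_smul, hxi, smul_smul] at this
  have hne : xi K ≠ 0 := by
    intro h0
    have := norm_jv_sq (K := K) 0 1
    rw [← xi, h0] at this
    simp [nsq, Matrix.one_apply, apply_ite (fun z : ℂ => ‖z‖ ^ 2)] at this
  have h2 : t * t = t := smul_left_injective ℂ hne h1
  rcases mul_eq_zero.1 (show t * (t - 1) = 0 by rw [mul_sub, h2, mul_one, sub_self]) with h3 | h3
  · left; rw [hP, h3, zero_smul]
  · right; rw [hP, sub_eq_zero.1 h3, one_smul]

end

end Vale.Agent.P131
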