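import Vale.Agent.P131.Bridge.Approx

/-!
P131 bridge: properties of the space and the operator, and transitivity of the commutant.
-/

namespace Vale.Agent.P131

open Matrix UniformSpace Filter Topology
open scoped ComplexOrder ComplexConjugate InnerProductSpace

noncomputable section

variable {K : ℕ → ℕ}

theorem jv_injective (m : ℕ) : Function.Injective (jv K m) := by
  refine (injective_iff_map_eq_zero _).2 fun X hX => ?_
  have h := norm_jv_sq m X
  rw [hX, norm_zero, zero_pow two_ne_zero, nsq] at h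
  have hc : (Fintype.card (Idx K m) : ℝ) ≠ 0 := by exact_mod_cast Fintype.card_ne_zero
  have h2 := (div_eq_zero_iff.1 h.symm).resolve_right hc
  ext a b
  have ha := (Finset.sum_eq_zero_iff_of_nonneg fun a _ => by positivity).1 h2 a (by simp)
  have hb := (Finset.sum_eq_zero_iff_of_nonneg fun b _ => by positivity).1 ha b (by simp)
  simpa using hb

theorem hs_separable (K : ℕ → ℕ) : TopologicalSpace.SeparableSpace (Hs K) := by
  rw [← TopologicalSpace.isSeparable_univ_iff]
  have h : ∀ m, TopologicalSpace.IsSeparable (Set.range (jv K m)) := fun m => by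
    let f : (Idx K m → Idx K m → ℂ) →ₗ[ℂ] Hs K :=
      { toFun := fun g => jv K m (Matrix.of g)
        map_add' := fun g g' => map_add (jv K m) (Matrix.of g) (Matrix.of g')
        map_smul' := fun c g => map_smul (jv K m) c (Matrix.of g) }
    exact (TopologicalSpace.isSeparable_range f.continuous_of_finiteDimensional).mono
      (by rintro _ ⟨X, rfl⟩; exact ⟨X, rfl⟩)
  have h2 := (TopologicalSpace.IsSeparable.iUnion h).closure
  rwa [(dense_jv.mono (by rintro _ ⟨m, X, rfl⟩; exact Set.mem_iUnion.2 ⟨m, X, rfl⟩)).closure_eq]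
    at h2

theorem hs_not_finiteDimensional (K : ℕ → ℕ) : ¬ FiniteDimensional ℂ (Hs K) := by
  intro hfin
  have h : ∀ m, 2 ^ m ≤ Module.finrank ℂ (Hs K) := fun m => by
    refine le_trans ?_ (LinearMap.finrank_le_finrank_of_injective (jv_injective m))
    rw [Module.finrank_matrix, Module.finrank_self, mul_one]
    refine le_trans ?_ (Nat.le_mul_of_pos_left _ Fintype.card_pos)
    rw [Fintype.card_pi]
    calc 2 ^ m = ∏ _l : Fin m, 2 := by simp
      _ ≤ _ := Finset.prod_le_prod' fun l _ => by
        simp only [Fintype.card_prod, Fintype.card_bool, Fintype.card_fin]; omega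
  have := h (Module.finrank ℂ (Hs K) + 1)
  have h3 : Module.finrank ℂ (Hs K) + 1 < 2 ^ (Module.finrank ℂ (Hs K) + 1) := Nat.lt_two_pow_self
  omega

theorem siteOp_xD_apply_ne {m : ℕ} (l : Fin m) (a b : Idx K m)
    (h : siteOp K l (xD K l) a b ≠ 0) : (∀ j, j ≠ l → a j = b j) ∧ (a l).1 ≠ (b l).1 := by
  simp only [siteOp, Matrix.of_apply, ne_eq, ite_eq_right_iff, not_forall] at h
  obtain ⟨h1, h2⟩ := h
  refine ⟨h1, fun he => h2 ?_⟩
  simp [xD, e10, he, Matrix.single_apply]

theorem inner_xi_term (l : ℕ) : ⟪xi K, lop K (xl K l) (xi K)⟫_ℂ = 0 := by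
  rw [← jv_one (l + 1), lop_jv_same, inner_jv, Matrix.mul_one, ip, Matrix.conjTranspose_one,
    Matrix.one_mul, ntr]
  have : (xl K l).trace = 0 := Finset.sum_eq_zero fun a _ => by
    by_contra h
    exact (siteOp_xD_apply_ne _ a a h).2 rfl
  rw [this, zero_div]

theorem inner_xl_term {l : ℕ} (hl : l ≠ 0) :
    ⟪jv K 1 (xl K 0), lop K (xl K l) (xi K)⟫_ℂ = 0 := by
  rw [← jv_one (l + 1), lop_jv_same, Matrix.mul_one, ← jv_up (show 1 ≤ l + 1 by omega) (xl K 0),
    inner_jv, xl, up_siteOp, ip, ntr]
  have : ((siteOp K (⟨0, by omega⟩ : Fin (l + 1)) (xD K 0))ᴴ * xl K l).trace = 0 :=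
    Finset.sum_eq_zero fun a _ => by
      rw [Matrix.diag_apply, Matrix.mul_apply]
      refine Finset.sum_eq_zero fun c _ => ?_
      by_contra h
      rw [Matrix.conjTranspose_apply, mul_eq_zero, not_or, star_eq_zero] at h
      have h1 := siteOp_xD_apply_ne _ c a h.1
      have h2 := siteOp_xD_apply_ne _ c a h.2
      refine h2.2 (congrArg Prod.fst (h1.1 _ ?_))
      exact fun e => hl (congrArg Fin.val e :)
  rw [this, zero_div]

theorem opT_xi : opT K (xi K) = ∑' l : ℕ, ((1 / 2 : ℂ) ^ l) • lop K (xl K l) (xi K) := by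
  rw [opT]
  exact (ContinuousLinearMap.apply ℂ (Hs K) (xi K)).map_tsum summable_term

theorem summable_term_xi : Summable fun l : ℕ => ((1 / 2 : ℂ) ^ l) • lop K (xl K l) (xi K) :=
  (summable_term (K := K)).map
    (((ContinuousLinearMap.apply ℂ (Hs K) (xi K) : (Hs K →L[ℂ] Hs K) →L[ℂ] Hs K)).toLinearMap.toAddMonoidHom)
    (ContinuousLinearMap.apply ℂ (Hs K) (xi K)).continuous

theorem opT_not_scalar (c : ℂ) : opT K ≠ c • 1 := by
  intro he
  have hx : opT K (xi K) = c • xi K := by rw [he]; rfl
  have h0 : ⟪xi K, opT K (xi K)⟫_ℂ = 0 := by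
    rw [opT_xi, ← innerSL_apply_apply ℂ, (innerSL ℂ (xi K)).map_tsum summable_term_xi]
    simp [inner_xi_term]
  have hxx : ⟪xi K, xi K⟫_ℂ = 1 := by
    rw [xi, inner_jv, ip, ntr]
    simp [Matrix.trace_one]
  rw [hx, inner_smul_right, hxx, mul_one] at h0
  have h1 : ⟪jv K 1 (xl K 0), opT K (xi K)⟫_ℂ = ⟪jv K 1 (xl K 0), jv K 1 (xl K 0)⟫_ℂ := by
    rw [opT_xi, ← innerSL_apply_apply ℂ, (innerSL ℂ _).map_tsum summable_term_xi,
      tsum_eq_single 0 fun l hl => by simp [inner_xl_term hl]]
    rw [← jv_one 1, lop_jv_same, Matrix.mul_one]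
    simp
  rw [hx, h0, zero_smul, inner_zero_right, eq_comm, inner_self_eq_zero] at h1
  have h2 := jv_injective 1 (h1.trans (map_zero (jv K 1)).symm)
  have h3 := congrFun (congrFun h2 (fun _ => (true, 0))) (fun _ => (false, 0))
  simp [xl, siteOp, xD, e10, Fin.forall_fin_one] at h3

/-- every closed subspace invariant under the commutant of `opT K` is trivial -/
theorem opT_transitive
    (hcore : ∀ (A : ∀ m, Lvl K m) (η : ℕ → ℝ), IsApprox K A η → SitesCommute K A)
    (W : Submodule ℂ (Hs K)) (hW : IsClosed (W : Set (Hs K)))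
    (hinv : ∀ A : Hs K →L[ℂ] Hs K, A * opT K = opT K * A → ∀ x ∈ W, A x ∈ W) :
    W = ⊥ ∨ W = ⊤ := by
  have : CompleteSpace W := hW.completeSpace_coe
  set P := W.starProjection
  have hP : InvProj P :=
    ⟨fun x => Submodule.starProjection_eq_self_iff.2 (W.starProjection_apply_mem x),
      fun x y => Submodule.inner_starProjection_left_eq_right W x y,
      fun A hA x => Submodule.starProjection_eq_self_iff.2
        (hinv A hA _ (W.starProjection_apply_mem x))⟩
  rcases scalar_of_sitesCommute hP (hcore _ _ (isApprox_appr hP)) with h | h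
  · left
    refine (Submodule.eq_bot_iff W).2 fun x hx => ?_
    have := Submodule.starProjection_eq_self_iff.2 hx
    change P x = x at this
    rw [h] at this
    exact this.symm
  · right
    refine Submodule.eq_top_iff'.2 fun x => ?_
    refine Submodule.starProjection_eq_self_iff.1 ?_
    change P x = x
    rw [h]; rfl

end

end Vale.Agent.P131
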