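import Vale.Agent.P131.Bridge.Up

/-!
P131 bridge: the Hilbert space `L²(R)` as a completion, left and right multiplications, the
operator `T`.
-/

namespace Vale.Agent.P131

open Matrix UniformSpace Filter Topology
open scoped ComplexOrder ComplexConjugate InnerProductSpace

noncomputable section

variable {K : ℕ → ℕ}

/-- eventually constant sequence of levels -/
def Stab (M : ∀ m, Lvl K m) (n : ℕ) : Prop :=
  ∀ j k (h : j ≤ k), n ≤ j → M k = up K h (M j)

theorem Stab.mono {M : ∀ m, Lvl K m} {n n' : ℕ} (h : Stab M n) (hn : n ≤ n') : Stab M n' :=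
  fun j k hjk hj => h j k hjk (hn.trans hj)

variable (K) in
/-- the algebraic union of the levels, before separation -/
def pre : Submodule ℂ (∀ m, Lvl K m) where
  carrier := {M | ∃ n, Stab M n}
  zero_mem' := ⟨0, fun j k h _ => (up_zero h).symm⟩
  add_mem' := by
    rintro M N ⟨n, hM⟩ ⟨n', hN⟩
    refine ⟨max n n', fun j k h hj => ?_⟩
    rw [Pi.add_apply, Pi.add_apply, up_add, hM j k h (le_of_max_le_left hj),
      hN j k h (le_of_max_le_right hj)]
  smul_mem' := by
    rintro c M ⟨n, hM⟩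
    refine ⟨n, fun j k h hj => ?_⟩
    rw [Pi.smul_apply, Pi.smul_apply, up_smul, hM j k h hj]

variable (K) in
/-- the pre-Hilbert space (a synonym, so that it does not carry the product topology) -/
def Pre := ↥(pre K)

instance : AddCommGroup (Pre K) := inferInstanceAs (AddCommGroup ↥(pre K))

instance : Module ℂ (Pre K) := inferInstanceAs (Module ℂ ↥(pre K))

theorem val_add (M N : Pre K) : (M + N).1 = M.1 + N.1 := rfl

theorem val_sub (M N : Pre K) : (M - N).1 = M.1 - N.1 := rfl

theorem val_smul (c : ℂ) (M : Pre K) : (c • M).1 = c • M.1 := rfl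

/-- stabilisation index -/
def deg (M : Pre K) : ℕ := Classical.choose M.2

theorem deg_spec (M : Pre K) : Stab M.1 (deg M) := Classical.choose_spec M.2

/-- inner product before completion -/
def pip (M N : Pre K) : ℂ := ip (M.1 (max (deg M) (deg N))) (N.1 (max (deg M) (deg N)))

theorem ip_stable {M N : ∀ m, Lvl K m} {n : ℕ} (hM : Stab M n) (hN : Stab N n) {j k : ℕ}
    (hj : n ≤ j) (hk : n ≤ k) : ip (M j) (N j) = ip (M k) (N k) := by
  have h : ∀ i, n ≤ i → ip (M i) (N i) = ip (M n) (N n) := fun i hi => by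
    rw [hM n i hi le_rfl, hN n i hi le_rfl, ip_up]
  rw [h j hj, h k hk]

theorem pip_eq (M N : Pre K) {n j : ℕ} (hM : Stab M.1 n) (hN : Stab N.1 n) (hj : n ≤ j) :
    pip M N = ip (M.1 j) (N.1 j) := by
  have hM' : Stab M.1 (max (deg M) (deg N)) := (deg_spec M).mono (le_max_left _ _)
  have hN' : Stab N.1 (max (deg M) (deg N)) := (deg_spec N).mono (le_max_right _ _)
  rw [pip, ip_stable hM' hN' le_rfl (le_max_left _ j),
    ← ip_stable hM hN hj (hj.trans (le_max_right _ j))]

instance : PreInnerProductSpace.Core ℂ (Pre K) where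
  inner := pip
  conj_inner_symm M N := by
    have hM := (deg_spec M).mono (le_max_left (deg M) (deg N))
    have hN := (deg_spec N).mono (le_max_right (deg M) (deg N))
    rw [pip_eq N M hN hM le_rfl, pip_eq M N hM hN le_rfl, ip_conj]
  re_inner_nonneg M := by
    rw [pip_eq M M (deg_spec M) (deg_spec M) le_rfl, ip_self]
    simpa using nsq_nonneg _
  add_left M N L := by
    set n := max (max (deg M) (deg N)) (deg L)
    have hM := (deg_spec M).mono (show deg M ≤ n by omega)
    have hN := (deg_spec N).mono (show deg N ≤ n by omega)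
    have hL := (deg_spec L).mono (show deg L ≤ n by omega)
    have hMN : Stab (M + N).1 n := fun j k h hj => by
      simp only [val_add, Pi.add_apply, up_add, ← hM j k h hj, ← hN j k h hj]
    rw [pip_eq _ L hMN hL le_rfl, pip_eq M L hM hL le_rfl, pip_eq N L hN hL le_rfl]
    exact ip_add_left _ _ _
  smul_left M N c := by
    set n := max (deg M) (deg N)
    have hM := (deg_spec M).mono (show deg M ≤ n by omega)
    have hN := (deg_spec N).mono (show deg N ≤ n by omega)
    have hcM : Stab (c • M).1 n := fun j k h hj => by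
      simp only [val_smul, Pi.smul_apply, up_smul, ← hM j k h hj]
    rw [pip_eq _ N hcM hN le_rfl, pip_eq M N hM hN le_rfl]
    exact ip_smul_left c _ _

instance : SeminormedAddCommGroup (Pre K) :=
  InnerProductSpace.Core.toSeminormedAddCommGroup (𝕜 := ℂ)

instance : InnerProductSpace ℂ (Pre K) := InnerProductSpace.ofCore inferInstance

theorem inner_pre (M N : Pre K) {n j : ℕ} (hM : Stab M.1 n) (hN : Stab N.1 n) (hj : n ≤ j) :
    ⟪M, N⟫_ℂ = ip (M.1 j) (N.1 j) := pip_eq M N hM hN hj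

theorem norm_pre_sq (M : Pre K) {n j : ℕ} (hM : Stab M.1 n) (hj : n ≤ j) :
    ‖M‖ ^ 2 = nsq (M.1 j) := by
  rw [← inner_self_eq_norm_sq (𝕜 := ℂ) M, inner_pre M M hM hM hj, ip_self]
  simp

variable (K) in
/-- the Hilbert space -/
abbrev Hs := Completion (Pre K)

variable (K) in
/-- constant sequence of an element of level `m` -/
def lift (m : ℕ) : Lvl K m →ₗ[ℂ] (∀ j, Lvl K j) where
  toFun X j := if h : m ≤ j then up K h X else 0
  map_add' X Y := by
    funext j
    by_cases h : m ≤ j <;> simp [h, up_add]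
  map_smul' c X := by
    funext j
    by_cases h : m ≤ j <;> simp [Pi.smul_apply, h, up_smul]

theorem lift_apply {m j : ℕ} (h : m ≤ j) (X : Lvl K m) : lift K m X j = up K h X := dif_pos h

theorem stab_lift (m : ℕ) (X : Lvl K m) : Stab (lift K m X) m := fun j k h hj => by
  rw [lift_apply hj, lift_apply (hj.trans h), up_up]

variable (K) in
/-- inclusion of level `m` before completion -/
def jp (m : ℕ) : Lvl K m →ₗ[ℂ] Pre K :=
  ((lift K m).codRestrict (pre K) fun X => ⟨m, stab_lift m X⟩ : Lvl K m →ₗ[ℂ] ↥(pre K))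

variable (K) in
/-- inclusion of level `m` -/
def jv (m : ℕ) : Lvl K m →ₗ[ℂ] Hs K :=
  (Completion.toComplL : Pre K →L[ℂ] Hs K).toLinearMap.comp (jp K m)

theorem inner_jv (m : ℕ) (X Y : Lvl K m) : ⟪jv K m X, jv K m Y⟫_ℂ = ip X Y := by
  change ⟪((jp K m X : Pre K) : Hs K), ((jp K m Y : Pre K) : Hs K)⟫_ℂ = _
  rw [Completion.inner_coe, inner_pre _ _ (stab_lift m X) (stab_lift m Y) le_rfl]
  change ip (lift K m X m) (lift K m Y m) = _
  rw [lift_apply le_rfl, lift_apply le_rfl, up_self, up_self]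

theorem norm_jv_sq (m : ℕ) (X : Lvl K m) : ‖jv K m X‖ ^ 2 = nsq X := by
  rw [← inner_self_eq_norm_sq (𝕜 := ℂ), inner_jv, ip_self]
  simp

theorem coe_eq_jv (M : Pre K) {n : ℕ} (hM : Stab M.1 n) : (M : Hs K) = jv K n (M.1 n) := by
  change (M : Hs K) = ((jp K n (M.1 n) : Pre K) : Hs K)
  rw [← sub_eq_zero, ← Completion.coe_sub, ← norm_eq_zero, Completion.norm_coe,
    ← sq_eq_zero_iff]
  have hs : Stab (M - jp K n (M.1 n)).1 n := fun j k h hj => by
    change M.1 k - lift K n (M.1 n) k = up K h (M.1 j - lift K n (M.1 n) j)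
    rw [up_sub, ← hM j k h hj, ← stab_lift n (M.1 n) j k h hj]
  rw [norm_pre_sq _ hs le_rfl]
  change nsq (M.1 n - lift K n (M.1 n) n) = 0
  rw [lift_apply le_rfl, up_self, sub_self]
  simp [nsq]

theorem jv_up {m j : ℕ} (h : m ≤ j) (X : Lvl K m) : jv K j (up K h X) = jv K m X := by
  have := coe_eq_jv (jp K m X) ((stab_lift m X).mono h)
  change jv K m X = jv K j (lift K m X j) at this
  rw [lift_apply h] at this
  exact this.symm

theorem dense_jv : Dense {v : Hs K | ∃ m X, jv K m X = v} := by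
  refine (Completion.denseRange_coe (α := Pre K)).mono ?_
  rintro _ ⟨M, rfl⟩
  exact ⟨_, _, (coe_eq_jv M (deg_spec M)).symm⟩

/-- two bounded operators agree if they agree on every level -/
theorem clm_ext {F : Type*} [NormedAddCommGroup F] [NormedSpace ℂ F] {f g : Hs K →L[ℂ] F}
    (h : ∀ m X, f (jv K m X) = g (jv K m X)) : f = g := by
  refine DFunLike.coe_injective (Continuous.ext_on dense_jv f.continuous g.continuous ?_)
  rintro _ ⟨m, X, rfl⟩
  exact h m X

/-- extension of a bounded map to the completion -/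
def extend' (f : Pre K →ₗ[ℂ] Pre K) (C : ℝ) (h : ∀ v, ‖f v‖ ≤ C * ‖v‖) : Hs K →L[ℂ] Hs K :=
  ((Completion.toComplL : Pre K →L[ℂ] Hs K).comp (f.mkContinuous C h)).extend
    (Completion.toComplL : Pre K →L[ℂ] Hs K)

theorem extend'_coe (f : Pre K →ₗ[ℂ] Pre K) (C : ℝ) (h : ∀ v, ‖f v‖ ≤ C * ‖v‖) (v : Pre K) :
    extend' f C h (v : Hs K) = ((f v : Pre K) : Hs K) :=
  ContinuousLinearMap.extend_eq _ (Completion.denseRange_coe (α := Pre K))
    (Completion.isUniformInducing_coe (Pre K)) v

theorem extend'_norm (f : Pre K →ₗ[ℂ] Pre K) (C : ℝ) (hC : 0 ≤ C) (h : ∀ v, ‖f v‖ ≤ C * ‖v‖) :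
    ‖extend' f C h‖ ≤ C := by
  refine ContinuousLinearMap.opNorm_le_bound _ hC fun x => ?_
  refine Completion.induction_on x (isClosed_le (by fun_prop) (by fun_prop)) fun v => ?_
  rw [extend'_coe, Completion.norm_coe, Completion.norm_coe]
  exact h v

theorem stab_mul {s : ∀ m, Lvl K m} {M : ∀ m, Lvl K m} {n n' : ℕ} (hs : Stab s n)
    (hM : Stab M n') : Stab (fun j => s j * M j) (max n n') := fun j k h hj => by
  simp only [up_mul, ← hs j k h (le_of_max_le_left hj), ← hM j k h (le_of_max_le_right hj)]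

variable (K) in
/-- left multiplication before completion -/
def lpre {m : ℕ} (X : Lvl K m) : Pre K →ₗ[ℂ] Pre K where
  toFun M := ⟨fun j => lift K m X j * M.1 j, _, stab_mul (stab_lift m X) (deg_spec M)⟩
  map_add' M N := by
    apply Subtype.ext
    funext j
    exact mul_add (lift K m X j) (M.1 j) (N.1 j)
  map_smul' c M := by
    apply Subtype.ext
    funext j
    exact Matrix.mul_smul (lift K m X j) c (M.1 j)

variable (K) in
/-- right multiplication before completion -/
def rpre {m : ℕ} (X : Lvl K m) : Pre K →ₗ[ℂ] Pre K where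
  toFun M := ⟨fun j => M.1 j * lift K m X j, _, stab_mul (deg_spec M) (stab_lift m X)⟩
  map_add' M N := by
    apply Subtype.ext
    funext j
    exact add_mul (M.1 j) (N.1 j) (lift K m X j)
  map_smul' c M := by
    apply Subtype.ext
    funext j
    exact Matrix.smul_mul c (M.1 j) (lift K m X j)

theorem norm_le_of_nsq {M N : Pre K} {n : ℕ} {C : ℝ} (hC : 0 ≤ C) (hM : Stab M.1 n)
    (hN : Stab N.1 n) (h : nsq (M.1 n) ≤ C ^ 2 * nsq (N.1 n)) : ‖M‖ ≤ C * ‖N‖ := by
  rw [← norm_pre_sq M hM le_rfl, ← norm_pre_sq N hN le_rfl, ← mul_pow] at h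
  exact (pow_le_pow_iff_left₀ (norm_nonneg _) (by positivity) two_ne_zero).1 h

theorem norm_lpre {m : ℕ} (X : Lvl K m) (C : ℝ) (hC0 : 0 ≤ C)
    (hC : ∀ j (h : m ≤ j) (Y : Lvl K j), nsq (up K h X * Y) ≤ C ^ 2 * nsq Y) (M : Pre K) :
    ‖lpre K X M‖ ≤ C * ‖M‖ := by
  refine norm_le_of_nsq hC0 (stab_mul (stab_lift m X) (deg_spec M))
    ((deg_spec M).mono (le_max_right m _)) ?_
  change nsq (lift K m X _ * M.1 _) ≤ _
  rw [lift_apply (le_max_left m _)]
  exact hC _ _ _

theorem norm_rpre {m : ℕ} (X : Lvl K m) (C : ℝ) (hC0 : 0 ≤ C)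
    (hC : ∀ j (h : m ≤ j) (Y : Lvl K j), nsq (Y * up K h X) ≤ C ^ 2 * nsq Y) (M : Pre K) :
    ‖rpre K X M‖ ≤ C * ‖M‖ := by
  refine norm_le_of_nsq hC0 (stab_mul (deg_spec M) (stab_lift m X))
    ((deg_spec M).mono (le_max_left _ m)) ?_
  change nsq (M.1 _ * lift K m X _) ≤ _
  rw [lift_apply (le_max_right _ m)]
  exact hC _ _ _

variable (K) in
/-- left multiplication -/
def lop {m : ℕ} (X : Lvl K m) : Hs K →L[ℂ] Hs K :=
  extend' (lpre K X) (bnd X)
    (norm_lpre X _ (Real.sqrt_nonneg _) fun _ h Y => (nsq_up_mul_le h X Y).1)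

variable (K) in
/-- right multiplication -/
def rop {m : ℕ} (X : Lvl K m) : Hs K →L[ℂ] Hs K :=
  extend' (rpre K X) (bnd X)
    (norm_rpre X _ (Real.sqrt_nonneg _) fun _ h Y => (nsq_up_mul_le h X Y).2)

theorem lop_jv {m k j : ℕ} (hm : m ≤ j) (hk : k ≤ j) (X : Lvl K m) (Y : Lvl K k) :
    lop K X (jv K k Y) = jv K j (up K hm X * up K hk Y) := by
  change lop K X ((jp K k Y : Pre K) : Hs K) = _
  rw [lop, extend'_coe, coe_eq_jv _ ((stab_mul (stab_lift m X) (stab_lift k Y)).mono
    (max_le hm hk))]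
  change jv K j (lift K m X j * lift K k Y j) = _
  rw [lift_apply hm, lift_apply hk]

theorem rop_jv {m k j : ℕ} (hm : m ≤ j) (hk : k ≤ j) (X : Lvl K m) (Y : Lvl K k) :
    rop K X (jv K k Y) = jv K j (up K hk Y * up K hm X) := by
  change rop K X ((jp K k Y : Pre K) : Hs K) = _
  rw [rop, extend'_coe, coe_eq_jv _ ((stab_mul (stab_lift k Y) (stab_lift m X)).mono
    (max_le hk hm))]
  change jv K j (lift K k Y j * lift K m X j) = _
  rw [lift_apply hm, lift_apply hk]

theorem lop_jv_same {m : ℕ} (X Y : Lvl K m) : lop K X (jv K m Y) = jv K m (X * Y) := by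
  rw [lop_jv le_rfl le_rfl, up_self, up_self]

theorem rop_jv_same {m : ℕ} (X Y : Lvl K m) : rop K X (jv K m Y) = jv K m (Y * X) := by
  rw [rop_jv le_rfl le_rfl, up_self, up_self]

theorem lop_up {m j : ℕ} (h : m ≤ j) (X : Lvl K m) : lop K (up K h X) = lop K X := by
  refine clm_ext fun k Y => ?_
  rw [lop_jv (le_max_left j k) (le_max_right j k),
    lop_jv (h.trans (le_max_left j k)) (le_max_right j k), up_up]

theorem lop_mul {m : ℕ} (X Y : Lvl K m) : lop K (X * Y) = lop K X * lop K Y := by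
  refine clm_ext fun k Z => ?_
  have hm : m ≤ max m k := le_max_left m k
  change lop K (X * Y) _ = lop K X (lop K Y _)
  rw [lop_jv hm (le_max_right m k), lop_jv hm (le_max_right m k), lop_jv hm le_rfl,
    up_self, up_mul, Matrix.mul_assoc]

theorem lop_add {m : ℕ} (X Y : Lvl K m) : lop K (X + Y) = lop K X + lop K Y := by
  refine clm_ext fun k Z => ?_
  have hm : m ≤ max m k := le_max_left m k
  rw [_root_.add_apply, lop_jv hm (le_max_right m k), lop_jv hm (le_max_right m k),
    lop_jv hm (le_max_right m k), up_add, add_mul, map_add]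

theorem lop_smul {m : ℕ} (c : ℂ) (X : Lvl K m) : lop K (c • X) = c • lop K X := by
  refine clm_ext fun k Z => ?_
  have hm : m ≤ max m k := le_max_left m k
  rw [_root_.smul_apply, lop_jv hm (le_max_right m k), lop_jv hm (le_max_right m k),
    up_smul, Matrix.smul_mul, map_smul]

theorem lop_zero (m : ℕ) : lop K (0 : Lvl K m) = 0 := by
  simpa using lop_smul (0 : ℂ) (0 : Lvl K m)

theorem lop_sum {m : ℕ} {ι : Type*} (s : Finset ι) (X : ι → Lvl K m) :
    lop K (∑ i ∈ s, X i) = ∑ i ∈ s, lop K (X i) := by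
  classical
  induction s using Finset.induction with
  | empty => simp [lop_zero]
  | insert a s ha ih => simp [Finset.sum_insert ha, lop_add, ih]

theorem lop_commute_rop {m m' : ℕ} (X : Lvl K m) (Y : Lvl K m') :
    lop K X * rop K Y = rop K Y * lop K X := by
  refine clm_ext fun k Z => ?_
  set j := max (max m m') k
  have hm : m ≤ j := by omega
  have hm' : m' ≤ j := by omega
  have hk : k ≤ j := by omega
  change lop K X (rop K Y _) = rop K Y (lop K X _)
  rw [rop_jv hm' hk, lop_jv hm le_rfl,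
    lop_jv hm hk, rop_jv hm' le_rfl, up_self, up_self, Matrix.mul_assoc]

theorem inner_lop {m : ℕ} (X : Lvl K m) (x y : Hs K) :
    ⟪lop K X x, y⟫_ℂ = ⟪x, lop K Xᴴ y⟫_ℂ := by
  refine isClosed_property2 (Completion.denseRange_coe (α := Pre K))
    (p := fun x y => ⟪lop K X x, y⟫_ℂ = ⟪x, lop K Xᴴ y⟫_ℂ)
    (isClosed_eq (by fun_prop) (by fun_prop)) (fun M N => ?_) x y
  set j := max (max (deg M) (deg N)) m
  have h1 : m ≤ j := by omega
  rw [coe_eq_jv M ((deg_spec M).mono (show deg M ≤ j by omega)),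
    coe_eq_jv N ((deg_spec N).mono (show deg N ≤ j by omega)),
    lop_jv h1 le_rfl, lop_jv h1 le_rfl, inner_jv, inner_jv, up_self, up_self, ip_mul_left,
    up_conjTranspose]

theorem inner_rop {m : ℕ} (X : Lvl K m) (x y : Hs K) :
    ⟪rop K X x, y⟫_ℂ = ⟪x, rop K Xᴴ y⟫_ℂ := by
  refine isClosed_property2 (Completion.denseRange_coe (α := Pre K))
    (p := fun x y => ⟪rop K X x, y⟫_ℂ = ⟪x, rop K Xᴴ y⟫_ℂ)
    (isClosed_eq (by fun_prop) (by fun_prop)) (fun M N => ?_) x y
  set j := max (max (deg M) (deg N)) m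
  have h1 : m ≤ j := by omega
  rw [coe_eq_jv M ((deg_spec M).mono (show deg M ≤ j by omega)),
    coe_eq_jv N ((deg_spec N).mono (show deg N ≤ j by omega)),
    rop_jv h1 le_rfl, rop_jv h1 le_rfl, inner_jv, inner_jv, up_self, up_self, ip_mul_right,
    up_conjTranspose]

/-- the element `e10 ⊗ diag(2^-k)` at site `l`, in level `l + 1` -/
def xl (K : ℕ → ℕ) (l : ℕ) : Lvl K (l + 1) := siteOp K (⟨l, l.lt_succ_self⟩ : Fin (l + 1)) (xD K l)

theorem norm_xl (l : ℕ) : ‖lop K (xl K l)‖ ≤ 2 := by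
  have hC : ∑ v, ∑ u, ‖xD K l v u‖ ^ 2 ≤ (2 : ℝ) ^ 2 := by
    simp only [xD, e10, Matrix.of_apply, Fintype.sum_prod_type, Matrix.single]
    simp only [Fintype.sum_bool, norm_mul, mul_pow]
    simp [apply_ite (fun z : ℂ => ‖z‖ ^ 2), ← pow_mul]
    have : ∑ x : Fin (K l + 1), ((2 : ℝ) ^ ((x : ℕ) * 2))⁻¹ ≤ 4 := by
      calc ∑ x : Fin (K l + 1), ((2 : ℝ) ^ ((x : ℕ) * 2))⁻¹
          = ∑ i ∈ Finset.range (K l + 1), ((1 / 4 : ℝ)) ^ i := by
            rw [Finset.sum_range]
            refine Finset.sum_congr rfl fun i _ => ?_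
            rw [pow_mul', one_div, inv_pow]; norm_num
        _ ≤ (1 - 1 / 4 : ℝ)⁻¹ := by
            rw [← tsum_geometric_of_lt_one (by norm_num) (by norm_num)]
            exact (summable_geometric_of_lt_one (by norm_num) (by norm_num)).sum_le_tsum _
              fun i _ => by positivity
        _ ≤ 4 := by norm_num
    norm_num at this ⊢
    linarith
  refine ContinuousLinearMap.opNorm_le_bound _ (by norm_num) fun x => ?_
  refine Completion.induction_on x (isClosed_le (by fun_prop) (by fun_prop)) fun v => ?_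
  rw [lop, extend'_coe, Completion.norm_coe, Completion.norm_coe]
  refine norm_lpre _ 2 (by norm_num) (fun j h Y => ?_) v
  rw [xl, up_siteOp]
  exact (nsq_siteOp_mul_le K _ _ 2 hC Y).1

theorem summable_term :
    Summable fun l : ℕ => ((1 / 2 : ℂ) ^ l) • lop K (xl K l) := by
  refine Summable.of_norm_bounded
    ((summable_geometric_of_lt_one (by norm_num : (0 : ℝ) ≤ 1 / 2) (by norm_num)).mul_left 2)
    fun l => ?_
  rw [norm_smul, norm_pow, mul_comm]
  have h := norm_xl (K := K) l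
  norm_num at h ⊢
  gcongr

variable (K) in
/-- the operator -/
def opT : Hs K →L[ℂ] Hs K := ∑' l : ℕ, ((1 / 2 : ℂ) ^ l) • lop K (xl K l)

theorem rop_commute_opT {m : ℕ} (Y : Lvl K m) : rop K Y * opT K = opT K * rop K Y :=
  Commute.tsum_right _ fun l => Commute.smul_right (lop_commute_rop (xl K l) Y).symm _

theorem lop_commute_opT {m : ℕ} (b : Lvl K m) (hb : Commute b (Tm K m)) :
    lop K b * opT K = opT K * lop K b := by
  have hhead : ∑ l ∈ Finset.range m, ((1 / 2 : ℂ) ^ l) • lop K (xl K l) = lop K (Tm K m) := by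
    rw [Finset.sum_range, Tm, lop_sum]
    refine Finset.sum_congr rfl fun l _ => ?_
    rw [lop_smul, ← lop_up (show (l : ℕ) + 1 ≤ m from l.2) (xl K l), xl, up_siteOp]
  have h1 : Commute (lop K b) (lop K (Tm K m)) := by
    change _ = _
    rw [← lop_mul, ← lop_mul, hb.eq]
  have h2 : ∀ l, Commute (lop K b) (((1 / 2 : ℂ) ^ (l + m)) • lop K (xl K (l + m))) := by
    intro l
    refine Commute.smul_right ?_ _
    change _ = _
    rw [← lop_up (show m ≤ l + m + 1 by omega) b, ← lop_mul, ← lop_mul]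
    congr 1
    exact commute_up_deep b l
  have key : opT K = lop K (Tm K m) +
      ∑' l, ((1 / 2 : ℂ) ^ (l + m)) • lop K (xl K (l + m)) := by
    rw [← hhead]
    exact (summable_term.sum_add_tsum_nat_add m).symm
  rw [key]
  exact (h1.add_right (Commute.tsum_right _ h2)).eq

end

end Vale.Agent.P131
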