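import Vale.Agent.P131.Blk

/-!
P131 bridge: the embeddings of the levels and the normalised inner product.
-/

namespace Vale.Agent.P131

open Matrix
open scoped ComplexOrder ComplexConjugate

noncomputable section

variable (K : ℕ → ℕ)

/-- restriction to the first `m` sites -/
def head {m j : ℕ} (h : m ≤ j) (a : Idx K j) : Idx K m := fun l => a (Fin.castLE h l)

/-- split a configuration after the first `m` sites -/
def cutEquiv {m j : ℕ} (h : m ≤ j) :
    Idx K j ≃ Idx K m × ((l : {l : Fin j // m ≤ (l : ℕ)}) → Site K (l : Fin j)) where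
  toFun a := (head K h a, fun l => a l.1)
  invFun p l := if hl : (l : ℕ) < m then p.1 ⟨l, hl⟩ else p.2 ⟨l, not_lt.1 hl⟩
  left_inv a := by
    funext l
    simp only [head]
    split <;> rfl
  right_inv p := by
    ext1
    · funext l
      simp only [head, Fin.val_castLE, l.2, dite_true]
    · funext l
      simp only [not_lt.2 l.2, dite_false]

/-- embedding of level `m` in level `j` -/
def up {m j : ℕ} (h : m ≤ j) (X : Lvl K m) : Lvl K j :=
  blk (cutEquiv K h) fun _ => X

theorem up_apply {m j : ℕ} (h : m ≤ j) (X : Lvl K m) (a b : Idx K j) :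
    up K h X a b = if ∀ l : Fin j, m ≤ (l : ℕ) → a l = b l then X (head K h a) (head K h b)
      else 0 := by
  simp only [up, blk_apply, cutEquiv, Equiv.coe_fn_mk]
  refine if_congr ?_ rfl rfl
  exact ⟨fun hc l hl => congrFun hc ⟨l, hl⟩, fun hc => funext fun l => hc l.1 l.2⟩

variable {K}

theorem up_add {m j : ℕ} (h : m ≤ j) (X Y : Lvl K m) : up K h (X + Y) = up K h X + up K h Y := by
  simp only [up, ← blk_add]; rfl

theorem up_sub {m j : ℕ} (h : m ≤ j) (X Y : Lvl K m) : up K h (X - Y) = up K h X - up K h Y := by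
  simp only [up, ← blk_sub]; rfl

theorem up_smul {m j : ℕ} (h : m ≤ j) (c : ℂ) (X : Lvl K m) : up K h (c • X) = c • up K h X := by
  simp only [up, ← blk_smul]; rfl

theorem up_zero {m j : ℕ} (h : m ≤ j) : up K h (0 : Lvl K m) = 0 := blk_zero _

theorem up_sum {m j : ℕ} (h : m ≤ j) {ι : Type*} (s : Finset ι) (X : ι → Lvl K m) :
    up K h (∑ i ∈ s, X i) = ∑ i ∈ s, up K h (X i) := by
  classical
  induction s using Finset.induction with
  | empty => simp [up_zero]
  | insert a s ha ih => simp [Finset.sum_insert ha, up_add, ih]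

theorem up_mul {m j : ℕ} (h : m ≤ j) (X Y : Lvl K m) : up K h (X * Y) = up K h X * up K h Y := by
  simp [up, blk_mul]

theorem up_one {m j : ℕ} (h : m ≤ j) : up K h (1 : Lvl K m) = 1 := blk_one _

theorem up_conjTranspose {m j : ℕ} (h : m ≤ j) (X : Lvl K m) : (up K h X)ᴴ = up K h Xᴴ := by
  simp [up, blk_conjTranspose]

theorem up_self {m : ℕ} (X : Lvl K m) : up K (le_refl m) X = X := by
  ext a b
  rw [up_apply, if_pos fun l hl => absurd l.2 (not_lt.2 hl)]
  rfl

theorem up_up {m j k : ℕ} (h : m ≤ j) (h' : j ≤ k) (X : Lvl K m) :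
    up K h' (up K h X) = up K (h.trans h') X := by
  ext a b
  simp only [up_apply]
  by_cases hc : ∀ l : Fin k, m ≤ (l : ℕ) → a l = b l
  · have hh : ∀ l : Fin j, m ≤ (l : ℕ) → head K h' a l = head K h' b l :=
      fun l hl => hc (Fin.castLE h' l) hl
    rw [if_pos (fun l hl => hc l (h.trans hl) : ∀ l : Fin k, j ≤ (l : ℕ) → a l = b l),
      if_pos hc]
    exact (if_pos hh).trans rfl
  · rw [if_neg hc]
    by_cases h1 : ∀ l : Fin k, j ≤ (l : ℕ) → a l = b l
    · rw [if_pos h1, if_neg]
      intro h2
      exact hc fun l hl => if hlj : (l : ℕ) < j then h2 ⟨l, hlj⟩ hl else h1 l (not_lt.1 hlj)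
    · rw [if_neg h1]

theorem up_siteOp {m j : ℕ} (h : m ≤ j) (l : ℕ) (hl : l < m) (M : Matrix (Site K l) (Site K l) ℂ) :
    up K h (siteOp K (⟨l, hl⟩ : Fin m) M) = siteOp K (⟨l, hl.trans_le h⟩ : Fin j) M := by
  ext a b
  simp only [up_apply, siteOp, Matrix.of_apply]
  by_cases hc : ∀ i : Fin j, i ≠ ⟨l, hl.trans_le h⟩ → a i = b i
  · rw [if_pos hc, if_pos, if_pos]
    · rfl
    · intro i hi
      exact hc (Fin.castLE h i) fun e => hi (Fin.ext (congrArg Fin.val e :))
    · intro i hi
      exact hc i fun e => absurd hl (not_lt.2 (by simpa [e] using hi))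
  · rw [if_neg hc]
    by_cases h1 : ∀ i : Fin j, m ≤ (i : ℕ) → a i = b i
    · rw [if_pos h1, if_neg]
      intro h2
      refine hc fun i hi => if him : (i : ℕ) < m then ?_ else h1 i (not_lt.1 him)
      exact h2 ⟨i, him⟩ fun e => hi (Fin.ext (congrArg Fin.val e :))
    · rw [if_neg h1]

/-- normalised inner product -/
def ip {I : Type*} [Fintype I] (X Y : Matrix I I ℂ) : ℂ := ntr (Xᴴ * Y)

variable {I : Type*} [Fintype I]

theorem ip_add_left (X Y Z : Matrix I I ℂ) : ip (X + Y) Z = ip X Z + ip Y Z := by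
  simp [ip, ntr, Matrix.add_mul, add_div]

theorem ip_smul_left (c : ℂ) (X Z : Matrix I I ℂ) : ip (c • X) Z = conj c * ip X Z := by
  simp [ip, ntr, mul_div_assoc]

theorem ip_conj (X Y : Matrix I I ℂ) : conj (ip Y X) = ip X Y := by
  simp only [ip, ntr, map_div₀, map_natCast]
  congr 1
  have := Matrix.trace_conjTranspose (Yᴴ * X)
  rw [Matrix.conjTranspose_mul, Matrix.conjTranspose_conjTranspose] at this
  exact this.symm

theorem ip_mul_left (X Y Z : Matrix I I ℂ) : ip (X * Y) Z = ip Y (Xᴴ * Z) := by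
  simp [ip, ntr, Matrix.conjTranspose_mul, Matrix.mul_assoc]

theorem ip_mul_right (X Y Z : Matrix I I ℂ) : ip (X * Y) Z = ip X (Z * Yᴴ) := by
  simp only [ip, ntr, Matrix.conjTranspose_mul]
  rw [Matrix.mul_assoc, Matrix.trace_mul_comm, Matrix.mul_assoc]

theorem ip_self (X : Matrix I I ℂ) : ip X X = (nsq X : ℂ) := by
  simp only [ip, ntr, nsq, Matrix.trace, Matrix.diag_apply, Matrix.mul_apply,
    Matrix.conjTranspose_apply]
  push_cast
  congr 1
  rw [Finset.sum_comm]
  refine Finset.sum_congr rfl fun a _ => Finset.sum_congr rfl fun b _ => ?_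
  exact Complex.conj_mul' _

theorem ip_single [DecidableEq I] (a b : I) (Y : Matrix I I ℂ) :
    ip (Matrix.single a b 1) Y = Y a b / (Fintype.card I : ℂ) := by
  simp only [ip, ntr, Matrix.conjTranspose_single, star_one]
  congr 1
  simp [Matrix.trace, Matrix.mul_apply, Matrix.single, ite_and]

theorem ip_up {m j : ℕ} (h : m ≤ j) (X Y : Lvl K m) : ip (up K h X) (up K h Y) = ip X Y := by
  simp only [ip, up_conjTranspose, ← up_mul]
  generalize Xᴴ * Y = Z
  simp only [ntr, up, blk_trace]
  rw [Fintype.card_congr (cutEquiv K h), Fintype.card_prod, Finset.sum_const, Finset.card_univ,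
    nsmul_eq_mul, Nat.cast_mul, mul_comm, mul_div_mul_right]
  exact_mod_cast Fintype.card_ne_zero

theorem nsq_up {m j : ℕ} (h : m ≤ j) (X : Lvl K m) : nsq (up K h X) = nsq X := by
  have := ip_up h X X
  simp only [ip_self] at this
  exact_mod_cast this

/-- an element of level `m` commutes with deeper site operators -/
theorem commute_up_siteOp {m j : ℕ} (h : m ≤ j) (b : Lvl K m) (l : Fin j) (hl : m ≤ (l : ℕ))
    (M : Matrix (Site K l) (Site K l) ℂ) : Commute (up K h b) (siteOp K l M) := by
  classical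
  change _ = _
  ext a c
  simp only [Matrix.mul_apply, up_apply, siteOp, Matrix.of_apply]
  by_cases hab : ∀ i : Fin j, i ≠ l → m ≤ (i : ℕ) → a i = c i
  · rw [Finset.sum_eq_single (Function.update c l (a l)),
      Finset.sum_eq_single (Function.update a l (c l))]
    · have e1 : ∀ i : Fin j, m ≤ (i : ℕ) → a i = Function.update c l (a l) i := fun i hi => by
        by_cases hil : i = l
        · subst hil; simp
        · simp [hil, hab i hil hi]
      have e2 : ∀ i, i ≠ l → Function.update c l (a l) i = c i := fun i hi => by simp [hi]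
      have e3 : ∀ i, i ≠ l → a i = Function.update a l (c l) i := fun i hi => by simp [hi]
      have e4 : ∀ i : Fin j, m ≤ (i : ℕ) → Function.update a l (c l) i = c i := fun i hi => by
        by_cases hil : i = l
        · subst hil; simp
        · simp [hil, hab i hil hi]
      have hh1 : head K h (Function.update c l (a l)) = head K h c := funext fun i => by
        refine Function.update_of_ne (fun e => absurd i.2 (not_lt.2 ?_)) _ _
        rw [← e] at hl; exact hl
      have hh2 : head K h (Function.update a l (c l)) = head K h a := funext fun i => by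
        refine Function.update_of_ne (fun e => absurd i.2 (not_lt.2 ?_)) _ _
        rw [← e] at hl; exact hl
      rw [if_pos e1, if_pos e2, if_pos e3, if_pos e4, hh1, hh2, Function.update_self,
        Function.update_self, mul_comm]
    · intro d _ hd
      by_cases h1 : ∀ i, i ≠ l → a i = d i
      · rw [if_pos h1, if_neg, mul_zero]
        intro h2
        apply hd
        funext i
        by_cases hil : i = l
        · subst hil; simp [h2 i hl]
        · simp [hil, h1 i hil]
      · rw [if_neg h1, zero_mul]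
    · simp
    · intro d _ hd
      by_cases h1 : ∀ i : Fin j, m ≤ (i : ℕ) → a i = d i
      · rw [if_pos h1, if_neg, mul_zero]
        intro h2
        apply hd
        funext i
        by_cases hil : i = l
        · subst hil; simp [h1 i hl]
        · simp [hil, h2 i hil]
      · rw [if_neg h1, zero_mul]
    · simp
  · rw [Finset.sum_eq_zero, Finset.sum_eq_zero]
    · intro d _
      by_cases h1 : ∀ i, i ≠ l → a i = d i
      · rw [if_pos h1, if_neg (fun h2 => hab fun i hi hi' => (h1 i hi).trans (h2 i hi')), mul_zero]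
      · rw [if_neg h1, zero_mul]
    · intro d _
      by_cases h1 : ∀ i : Fin j, m ≤ (i : ℕ) → a i = d i
      · rw [if_pos h1, if_neg (fun h2 => hab fun i hi hi' => (h1 i hi').trans (h2 i hi)), mul_zero]
      · rw [if_neg h1, zero_mul]

theorem commute_up_deep {m : ℕ} (b : Lvl K m) (l : ℕ) :
    Commute (up K (show m ≤ l + m + 1 by omega) b)
      (siteOp K (⟨l + m, (l + m).lt_succ_self⟩ : Fin (l + m + 1)) (xD K (l + m))) :=
  commute_up_siteOp _ b _ (Nat.le_add_left m l) _

/-- crude operator bound of an element -/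
def bnd {m : ℕ} (X : Lvl K m) : ℝ := Real.sqrt (∑ v, ∑ u, ‖X v u‖ ^ 2)

theorem nsq_up_mul_le {m j : ℕ} (h : m ≤ j) (X : Lvl K m) (Y : Lvl K j) :
    nsq (up K h X * Y) ≤ bnd X ^ 2 * nsq Y ∧ nsq (Y * up K h X) ≤ bnd X ^ 2 * nsq Y := by
  have hC : ∑ v, ∑ u, ‖X v u‖ ^ 2 ≤ bnd X ^ 2 := by
    rw [bnd, Real.sq_sqrt (by positivity)]
  exact ⟨nsq_blk_mul_le _ _ _ (fun _ => hC) Y, nsq_mul_blk_le _ _ _ (fun _ => hC) Y⟩

end

end Vale.Agent.P131
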